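import Mathlib
import Vale.Agent.Lib.P123.helper41.Ellipse

namespace Vale.Agent.Results.P123.IsometrySpan

open ContinuousLinearMap Polynomial

/-- Crouzeix's inequality, with the constant `√(1 + r ^ 2) ≤ √2 < 2`,
`r = min ‖b‖ ‖c‖ / max ‖b‖ ‖c‖`, for every operator `A = a + b V + c V†` where `V` is a
non-unitary isometry of a complex Hilbert space and `‖b‖ ≠ ‖c‖`: if `M` bounds `|p|` on the
numerical range of `A`, then `‖p(A)‖ ≤ √(1 + r ^ 2) * M ≤ √2 * M`. -/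
theorem result {H : Type*} [NormedAddCommGroup H] [InnerProductSpace ℂ H] [CompleteSpace H]
    (V : H →L[ℂ] H) (hV : adjoint V * V = 1) (hV' : V * adjoint V ≠ 1)
    (a b c : ℂ) (hbc : ‖b‖ ≠ ‖c‖) (p : ℂ[X]) (M : ℝ)
    (hM : ∀ x : H, ‖x‖ = 1 →
      ‖p.eval (inner ℂ x ((a • (1 : H →L[ℂ] H) + b • V + c • adjoint V) x))‖ ≤ M) :
    ‖aeval (a • (1 : H →L[ℂ] H) + b • V + c • adjoint V) p‖
        ≤ Real.sqrt (1 + (min ‖b‖ ‖c‖ / max ‖b‖ ‖c‖) ^ 2) * M ∧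
      ‖aeval (a • (1 : H →L[ℂ] H) + b • V + c • adjoint V) p‖ ≤ Real.sqrt 2 * M :=
  Vale.Agent.Lib.P123.H41.h41_result hV hV' a b c hbc p M hM

end Vale.Agent.Results.P123.IsometrySpan
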